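import Crest.Agent.X212.Wp42.Wp
import Crest.Agent.X212.Cyl58.PsW

/-!
# Row 212, SW-LEV (helper42): the levels of the critical points are bounded
-/

set_option autoImplicit false
set_option linter.unusedSectionVars false
noncomputable section
open scoped Manifold ContDiff Topology InnerProductSpace
open Finset Filter MeasureTheory

namespace Crest.Agent.X212.Wp42
open An Sob92 Wz78 Cyf70 Sw88 Mp86.En
open Sw (Bg F2 En3)
open Sw.En3 (sl fz gr ip nm hol gn L Crit Eqv)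

variable {κ lam ν : Type} [Fintype κ] [Fintype lam] [Fintype ν] [DecidableEq ν]
  {e : En3 κ lam ν} {v : e.YC} {y : e.Y.M} {C : ℕ → ℝ}

theorem lev_alg {V W : Type} [NormedAddCommGroup V] [NormedSpace ℝ V] [NormedAddCommGroup W]
    {q m : V} {d s : W} {n w β S M K N X : ℝ} (hw : 0 ≤ w)
    (hq : ‖q‖ = n ^ 2 / 4) (hs : ‖s‖ ≤ M * n) (hd : ‖d + s‖ = |β| * n)
    (hK : ‖m‖ + |S| / 4 + 2 * M ^ 2 ≤ K) (hN : 0 ≤ N) (hX : w * n ^ 4 / 4 - ‖m‖ * n ^ 2 ≤ 4 * X) :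
    2 * ‖m + w • q‖ ^ 2 + 2 * w * (‖d‖ ^ 2 - (N + S / 4 * n ^ 2 + 4 * X)) ≤
      8 * K ^ 2 + 4 * (w * β ^ 2) * n ^ 2 := by
  have n1 := pow_le_pow_left₀ (norm_nonneg _) (norm_add_le m (w • q)) 2
  rw [norm_smul, hq, Real.norm_of_nonneg hw] at n1
  have n2 := pow_le_pow_left₀ (norm_nonneg _) ((norm_le_add_norm_add d s).trans
    (add_le_add hd.le hs)) 2
  have n3 : ‖d‖ ^ 2 ≤ 2 * β ^ 2 * n ^ 2 + 2 * M ^ 2 * n ^ 2 := by
    rw [← sq_abs β]; linarith [sq_nonneg (|β| * n - M * n)]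
  have n4 := pow_le_pow_left₀ (norm_nonneg m) (show ‖m‖ ≤ K by
    linarith [abs_nonneg S, sq_nonneg M]) 2
  have n5 := mul_le_mul_of_nonneg_right hK (sq_nonneg n)
  have n6 := mul_le_mul_of_nonneg_right (neg_abs_le S) (sq_nonneg n)
  have n7 : ‖d‖ ^ 2 - (N + S / 4 * n ^ 2 + 4 * X) ≤
      2 * β ^ 2 * n ^ 2 + K * n ^ 2 - w * n ^ 4 / 4 := by linarith
  linarith [mul_le_mul_of_nonneg_left n7 hw, sq_nonneg (w * n ^ 2 - 4 * K),
    sq_nonneg (‖m‖ - w * (n ^ 2 / 4))]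

variable (κ C) in
/-- the bound of the curvature at critical points -/
def kE : ℝ := 8 * (C 0 + C 0 * C 0 + kS (Fintype.card (Option κ)) (C 2) / 4 + 2 * C 0 ^ 2) ^ 2 *
  C 0 + 4

theorem int_const (hN : e.Nb (C 0)) {r : ℝ} (hr : 0 ≤ r) : ∫ _, r ∂e.D.F.μ ≤ r * C 0 := by
  rw [integral_const, smul_eq_mul, mul_comm]
  exact mul_le_mul_of_nonneg_left (ENNReal.toReal_le_of_le_ofReal
    ((abs_nonneg _).trans (hN.f 0).1) hN.vol) hr

variable (he : e.OK) (hB : Bg.Bd (X := e.Z) e.cyl C) (hN : e.Nb (C 0)) (hv : Crit v)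
include he hv

theorem crit_eD (y : e.Y.M) :
    e.m.ρ none y (e.cyl.eD (fz v) (y, 0)) = -(e.b (nm v) • v.Φ y) :=
  neg_eq_iff_eq_neg.1 (sub_eq_zero.1 (hv.2.2 y))

theorem crit_eC (y : e.Y.M) : e.cyl.eC (fz v) (y, 0) = -(deriv e.f (hol v) • e.ζ y) := by
  have := norm_cv he (v := v) (y := y)
  simp only [hv.2.1, mul_zero, sum_const_zero] at this
  exact eq_neg_of_add_eq_zero_left (norm_eq_zero.1 (pow_eq_zero_iff two_ne_zero |>.1 this.symm))

include hB hN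

theorem fc_bd : ∫ y, ‖e.cyl.fc (fz v) (y, 0)‖ ^ 2 ∂e.D.F.μ ≤ kE κ C := by
  have i1 := itg ((cs0 (sm_fc' he.cyl hv.1)).norm.pow 2)
  have i2 := (itg ((cont_Φ hv.1).norm.pow 2)).const_mul (4 * (e.w * e.b (nm v) ^ 2))
  refine (Nul.le ((swz he hv.1).mul (2 * e.w)) i1 ((integrable_const _).add i2)
    fun y => ?_).trans ((integral_add (integrable_const _) i2).trans_le (add_le_add
      (int_const hN (by positivity)) ((integral_const_mul _ _).trans_le ?_)))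
  · have p : e.cyl.pp (y, 0) (v.Φ y) = v.Φ y := hv.1.pΦ (y, 0)
    have C0 := (norm_nonneg _).trans (hB.ms (y, 0))
    have hX : e.w * ‖v.Φ y‖ ^ 4 / 4 - ‖e.cyl.eC (fz v) (y, 0) + e.cyl.om (y, 0)‖ * ‖v.Φ y‖ ^ 2 ≤
        4 * ⟪e.cyl.fc (fz v) (y, 0), e.cyl.qd (y, 0) (v.Φ y) (v.Φ y)⟫_ℝ :=
      inner_fc_qd_ge he.cyl (c := fz v) (x := (y, 0)) p
    have hd : ‖dr v y + e.cyl.ms (y, 0) (v.Φ y)‖ = |e.b (nm v)| * ‖v.Φ y‖ :=
      ((norm_eD he).symm.trans (congrArg _ (crit_eD he hv y))).trans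
        ((norm_neg _).trans (norm_smul _ _))
    have := lev_alg (d := dr v y) (β := e.b (nm v)) (S := sc e.cyl (y, 0))
      (K := C 0 + C 0 * C 0 + kS (Fintype.card (Option κ)) (C 2) / 4 + 2 * C 0 ^ 2) hN.w0.le
      (norm_qd he.cyl p) ((e.cyl.ms (y, 0)).le_of_opNorm_le (hB.ms (y, 0)) (v.Φ y)) hd ?_
      (sum_nonneg fun i (_ : i ∈ univ) => sq_nonneg ‖nb (fz v) i (y, 0)‖) hX
    · have e1 : e.cyl.p2 (y, 0) (e.cyl.fc (fz v) (y, 0)) = e.cyl.eC (fz v) (y, 0) + e.cyl.om (y, 0) +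
          e.w • e.cyl.qd (y, 0) (v.Φ y) (v.Φ y) := by
        rw [Bg.eC, map_sub, map_smul, show (fz v).Φ (y, 0) = v.Φ y from rfl, p2_qd_self he.cyl p,
          sub_add_cancel, cyl_w, sub_add_cancel]
      have e2 : e.cyl.kd (fz v) (y, 0) = 0 := by
        simp [kd_eq, Fintype.sum_prod_type, Fintype.sum_option, fc_none, Base.st, cyl_o, o_some he]
      have e3 := norm_fc he.cyl hv.1 (x := (y, 0))
      rw [e2, sub_zero, e1] at e3
      exact (congrArg (· + _) e3).trans_le this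
    · have h1 := scal_le hB.tame (y, 0)
      have h2 := (norm_add_le (e.cyl.eC (fz v) (y, 0)) _).trans (add_le_add_right (hB.om (y, 0)) _)
      rw [crit_eC he hv, norm_neg, norm_smul] at h2
      rw [crit_eC he hv]
      linarith [mul_le_mul (hN.f (hol v)).2 (hN.ζ y) (norm_nonneg _) C0, Real.norm_eq_abs
        (deriv e.f (hol v)), congrArg (· * ‖e.ζ y‖) (Real.norm_eq_abs (deriv e.f (hol v)))]
  · have := rad_le he hN v
    change 4 * _ * nm v ≤ 4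
    linarith

theorem L_bd {A : ℝ} (hA : ∀ k, ∫ y, v.a k y ^ 2 ∂e.D.F.μ ≤ A) : |L v| ≤
    2 * ∫ y, ‖e.cyl.fc ⟨0, 0⟩ (y, 0)‖ ^ 2 ∂e.D.F.μ + 2 * kE κ C + 3 * (Fintype.card κ * A) +
      2 * C 0 ^ 2 * C 0 + 1 + 2 * C 0 := by
  have i0 := itg ((cs0 (sm_fc' he.cyl adm0)).norm.pow 2)
  have i1 := itg ((cs0 (sm_fc' he.cyl hv.1)).norm.pow 2)
  have i2 := fun k => itg ((cont_a hv.1 k).pow 2)
  have i3 := integrable_finsetSum univ fun k _ => i2 k
  have i4 := (itg ((cont_Φ hv.1).norm.pow 2)).const_mul (e.w / 2 * e.b (nm v))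
  have j1 := (i0.const_mul 2).add (i1.const_mul 2)
  have j2 := j1.add (i3.const_mul 3)
  have j3 := j2.add (integrable_const (2 * C 0 ^ 2))
  have h1 := abs_int (f := Mp86.En.dens v) (j3.add i4) fun y => by
    have k1 := (sum_sq_le _).trans (pow_le_pow_left₀ (norm_nonneg _) ((norm_p2 he.cyl (x := (y, 0))
      _).trans (norm_add_le (e.cyl.fc ⟨0, 0⟩ (y, 0)) (e.cyl.fc (fz v) (y, 0)))) 2)
    have k2 := (sum_sq_le _).trans (pow_le_pow_left₀ (norm_nonneg (e.om y)) (hB.om (y, 0)) 2)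
    have k3 : 0 ≤ e.w / 2 * e.b (nm v) * ‖v.Φ y‖ ^ 2 :=
      mul_nonneg (mul_nonneg (half_pos hN.w0).le (he.b0 _)) (sq_nonneg _)
    have k4 : ∀ (r : ℝ) (η : F2 κ), 0 ≤ ∑ k, η (none, some k) ^ 2 +
        2 * r * ∑ k, η (none, some k) * v.a k y + r ^ 2 * ∑ k, v.a k y ^ 2 := fun r η => by
      simp only [mul_sum, ← sum_add_distrib]
      exact sum_nonneg fun k _ => (sq_nonneg (η (none, some k) + r * v.a k y)).trans_eq (by ring)
    simp only [Mp86.En.dens, crit_eD he hv, inner_neg_left, real_inner_smul_left,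
      real_inner_self_eq_norm_sq, Pi.add_apply, Pi.pow_apply, abs_le]
    generalize e.cyl.p2 (y, 0) _ = η at k1 ⊢
    generalize ‖e.cyl.fc ⟨0, 0⟩ (y, 0)‖ = a, ‖e.cyl.fc (fz v) (y, 0)‖ = b at k1 ⊢
    constructor <;> linarith [k4 1 η, k4 (-1) η, k4 1 (e.om y), k4 (-1) (e.om y), sq_nonneg (a - b)]
  simp only [Pi.add_apply] at h1
  rw [integral_add (by exact j3) i4, integral_add (by exact j2) (integrable_const _),
    integral_add (by exact j1) (i3.const_mul 3), integral_add (i0.const_mul 2) (i1.const_mul 2),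
    integral_const_mul, integral_const_mul, integral_const_mul, integral_const_mul (_ * _),
    integral_finsetSum _ fun k _ => i2 k] at h1
  have h2 := fc_bd he hB hN hv
  have h3 := sum_le_card_nsmul univ _ _ fun k _ => hA k
  have h4 := int_const hN (r := 2 * C 0 ^ 2) (by positivity)
  have n0 : 0 ≤ nm v := integral_nonneg fun _ => sq_nonneg _
  have h5 := wB_le he hN n0
  have h6 : e.w * e.b (nm v) * nm v ≤ 1 := by
    rcases le_total (nm v) 1 with h | h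
    · exact mul_le_one₀ (wb_le hN _) n0 h
    · simp [he.b1 _ h]
  rw [nsmul_eq_mul, card_univ] at h3
  change _ ≤ _ + _ * nm v at h1
  simp only [Pi.pow_apply, abs_le] at h1 h5
  have h7 := abs_le.1 (hN.f (hol v)).1
  have h8 := abs_le.1 (hN.f 0).1
  rw [L_eq he hv.1, abs_le]
  constructor <;> linarith [h1.1, h1.2, h5.1, h5.2, h7.1, h7.2, h8.1, h8.2]

omit he hB hN hv in
/-- **SW-LEV** -/
theorem levStmt : LevStmt κ lam ν := fun e C he hB => by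
  obtain ⟨K, hK⟩ := Cyl58.wlU he
  refine ⟨2 * ∫ y, ‖e.cyl.fc ⟨0, 0⟩ (y, 0)‖ ^ 2 ∂e.D.F.μ + 2 * kE κ C + 3 * (Fintype.card κ *
    (|K 0| * (1 + √(kE κ C))) ^ 2) + 2 * C 0 ^ 2 * C 0 + 1 + 2 * C 0,
    fun w β S ψ he' hN hI v hv => ?_⟩
  have hB' : Bg.Bd (X := (e.re w β S ψ).Z) (e.re w β S ψ).cyl C := ⟨hB.tame, hB.ms, hB.dms, hB.om⟩
  obtain ⟨u, h1, h2⟩ := hK ⟨v.a, v.Φ⟩ ⟨hv.1.sa, hv.1.sΦ, hv.1.pa, hv.1.pΦ⟩
  have h3 : Eqv v ⟨u.a, u.Φ⟩ := h1
  rw [← hI v _ hv.1 h3]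
  refine L_bd he' hB' hN (Cyl58.eqv_crit he' h3 hv) fun k => ?_
  have h4 := Real.sqrt_le_sqrt (fc_bd he' hB' hN hv)
  have h5 := pow_le_pow_left₀ (nrm_nonneg _ _) (((nrm_mono zero_le_one _).trans (h2 0 k)).trans
    (mul_le_mul (le_abs_self _) (add_le_add_right ((nrm_eq _ _).trans_le h4) 1)
      (add_nonneg zero_le_one (nrm_nonneg _ _)) (abs_nonneg _))) 2
  rw [nrm_sq] at h5
  simpa only [N2, n2, Real.norm_eq_abs, sq_abs] using h5

end Crest.Agent.X212.Wp42
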