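import Crest.Agent.X212.Dl42.Main
import Crest.Agent.X212.Sw88.Bn

/-!
# Row 212, SW-FLUX and SW-GPW (helper42): the gradient at reducible slices, passage to a level
-/

set_option autoImplicit false
set_option linter.unusedSectionVars false
noncomputable section
open scoped Manifold ContDiff Topology InnerProductSpace
open Finset Filter MeasureTheory

namespace Crest.Agent.X212.Wp42
open An Sob92 Wz78 Cyf70 Dl42 Sw88
open Sw (Bg F2 En3)
open Sw.En3 (sl fz gr ip nm hol gn L)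

variable {κ lam ν : Type} [Fintype κ] [Fintype lam] [Fintype ν] [DecidableEq ν]
  {e : En3 κ lam ν} {v : e.YC}

/-- step functions from a periodic function -/
theorem stp {g : ℝ → ℝ} (hg : Continuous g) {l : ℝ} (hl : 0 < l) (hp : Function.Periodic g l)
    (h0 : g ≠ 0) : ∃ δ > 0, ∃ l' > 0, ∃ φ, Stp φ l' ∧ ∀ r, deriv φ r ≠ 0 → δ ≤ g r ^ 2 := by
  obtain ⟨r₀, hr⟩ := Function.ne_iff.1 h0
  have hδ : 0 < g r₀ ^ 2 / 2 := half_pos (sq_pos_of_ne_zero hr)
  set ψ : ℝ → ℝ := fun r => min (max (g r ^ 2 - g r₀ ^ 2 / 2) 0) 1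
  have c : Continuous ψ := (((hg.pow 2).sub continuous_const).max continuous_const).min
    continuous_const
  have p : Function.Periodic ψ l := fun r => by simp only [ψ, hp r]
  have b : ∀ r, 0 ≤ ψ r ∧ ψ r ≤ 1 := fun r => ⟨le_min (le_max_right _ _) zero_le_one, min_le_right _ _⟩
  have i := fun a b => c.intervalIntegrable (μ := volume) a b
  have d := fun r => (c.integral_hasStrictDerivAt 0 r).hasDerivAt
  have m : 0 < ∫ r in r₀..r₀ + l, ψ r := intervalIntegral.integral_pos (by linarith) c.continuousOn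
    (fun r _ => (b r).1) ⟨r₀, ⟨le_rfl, by linarith⟩, lt_min (lt_max_of_lt_left (by linarith)) one_pos⟩
  obtain ⟨n, hn⟩ := exists_nat_ge (1 / ∫ r in r₀..r₀ + l, ψ r)
  have e : deriv (fun r => ∫ s in (0 : ℝ)..r, ψ s) = ψ := funext fun r => (d r).deriv
  refine ⟨_, hδ, ((n + 1 : ℕ) : ℤ) • l, zsmul_pos hl (by positivity), _, ⟨contDiff_one_iff_deriv.2
    ⟨fun r => (d r).differentiableAt, by rwa [e]⟩, by rwa [e], fun r => ?_⟩, fun r h => ?_⟩
  · rw [← intervalIntegral.integral_add_adjacent_intervals (i 0 r) (i r (r + _)),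
      p.intervalIntegral_add_zsmul_eq _ r i, p.intervalIntegral_add_eq r r₀, zsmul_eq_mul]
    rw [div_le_iff₀ m] at hn
    push_cast
    linarith
  · rw [e] at h
    refine le_of_not_gt fun k => h ?_
    simp only [ψ, max_eq_right (sub_nonpos.2 k.le), min_eq_left zero_le_one]

variable (he : e.OK)
include he

theorem sm_ga (hv : e.cyl.Adm (fz v)) (k : κ) : Sm e.Y.I ((gr v).a k) := ((fy_sl hv).sa he k).sl 0

theorem sm_gΦ (hv : e.cyl.Adm (fz v)) : Sm e.Y.I (gr v).Φ := ((fy_sl hv).sΦ he).sl 0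

theorem eC0 (y : e.Y.M) (k : κ) : e.cyl.eC ⟨0, 0⟩ (y, 0) (none, some k) = g0 e k y := by
  have h := eC_split he (c := ⟨0, 0⟩) ⟨fun _ => contMDiff_const, contMDiff_const, fun _ _ => by simp,
    fun _ => map_zero _⟩ y 0 k
  simp only [Dl42.dt, Ga, sd, st, d1, qq, sl, Pi.zero_apply, Pre.D_def, dv_const, dv_zero, smul_zero,
    sum_const_zero, sub_zero, mul_zero, inner_zero_right, zero_div, add_zero, zero_add] at h
  linarith

theorem flux1 (hz : e.Clo fun k y => e.ζ y (none, some k)) (hv : e.cyl.Adm (fz v)) (h0 : v.Φ = 0) :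
    8 * (flux e + deriv e.f (hol v) * zz e) ^ 2 ≤ zz e * gn v := by
  have A := ay_of hv
  let F := e.D.F.toPre
  have i1 : Integrable (fun y => ∑ k, e.ζ y (none, some k) * g0 e k y) e.D.F.μ :=
    ii F fun y => SA.sum _ fun k _ => SA.mul (hz.sm k y) (sm_g0 he k y)
  have i2 : Integrable (fun y => ∑ k, e.ζ y (none, some k) ^ 2) e.D.F.μ :=
    ii F fun y => SA.sum _ fun k _ => (hz.sm k y).pow 2
  have i3 : Integrable (fun y => ∑ k, e.ζ y (none, some k) * (gr v).a k y) e.D.F.μ :=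
    ii F fun y => SA.sum _ fun k _ => SA.mul (hz.sm k y) (sm_ga he hv k y)
  have i4 := int_ipd (sm_ga he hv) (sm_gΦ he hv) (sm_ga he hv) (sm_gΦ he hv)
  have e1 : ∀ k y, sd e (fun k y => e.ζ y (none, some k)) k y = 0 := fun k y =>
    sum_eq_zero fun i _ => sum_eq_zero fun j _ => mul_eq_zero_of_right _ (sub_eq_zero.2 (hz.cl i j y))
  have h1 := ((nul_sd he A.sa hz.sm A.pa hz.pr).mul (-1 / 2)).eq
    ((i1.const_mul 2).add (i2.const_mul (2 * deriv e.f (hol v))))
    (g' := fun y => ∑ k, e.ζ y (none, some k) * (gr v).a k y) fun y => by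
      simp only [gr_a he A, Ga, qq, h0, e1, Pi.zero_apply, inner_zero_right, mul_zero, zero_mul,
        sub_zero, sum_const_zero, Pi.add_apply, mul_add, mul_sum, zero_sub, mul_neg,
        ← sum_neg_distrib, ← sum_add_distrib]
      exact sum_congr rfl fun k _ => by ring
  simp only [Pi.add_apply, integral_add (i1.const_mul _) (i2.const_mul _), integral_const_mul] at h1
  have h2 := discrim_le_zero (a := 2 * zz e) (c := gn v)
    (b := 4 * ∫ y, ∑ k, e.ζ y (none, some k) * (gr v).a k y ∂e.D.F.μ) fun t => by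
    rw [zz, mul_right_comm, mul_right_comm 4, ← integral_const_mul, ← integral_const_mul,
      ← integral_add (i2.const_mul _) (i3.const_mul _)]
    refine le_trans (integral_nonneg fun y => ?_)
      (integral_add ((i2.const_mul _).add (i3.const_mul _)) i4).le
    have := sum_nonneg fun k (_ : k ∈ univ) => sq_nonneg (t * e.ζ y (none, some k) + (gr v).a k y)
    have w : 0 ≤ e.w * ⟪(gr v).Φ y, (gr v).Φ y⟫_ℝ := mul_nonneg he.cyl.w real_inner_self_nonneg
    simp only [add_sq, mul_pow, mul_assoc, sum_add_distrib, ← mul_sum] at this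
    simp only [ipd, ← sq, Pi.add_apply, Pi.zero_apply]
    linarith
  rw [discrim, h1] at h2
  simp only [flux, eC0 he]
  change _ - 4 * (2 * zz e) * gn v ≤ 0 at h2
  rw [← zz] at h2
  linarith

omit he in
/-- **SW-FLUX** -/
theorem fluxStmt : FluxStmt κ lam ν := fun e he hz => ⟨fun _ => flux1 he hz, fun h0 l hl hp hf => by
  have i2 : Integrable (fun y => ∑ k, e.ζ y (none, some k) ^ 2) e.D.F.μ :=
    ii e.D.F.toPre fun y => SA.sum _ fun k _ => (hz.sm k y).pow 2
  have n : ∀ y, 0 ≤ ∑ k, e.ζ y (none, some k) ^ 2 := fun y => by positivity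
  rcases (integral_nonneg n : 0 ≤ zz e).eq_or_lt with h | h
  · refine ⟨1, one_pos, 1, one_pos, .inl fun v => integral_eq_zero_of_ae ?_⟩
    filter_upwards [(integral_eq_zero_iff_of_nonneg n i2).1 h.symm] with y hy
    have := fun k => pow_eq_zero_iff two_ne_zero |>.1
      ((sum_eq_zero_iff_of_nonneg fun _ _ => sq_nonneg _).1 hy k (mem_univ _))
    simp [this]
  · obtain ⟨δ, hδ, l', hl', φ, h1, h2⟩ := stp (he.sf.continuous_deriv (by simp)) hl hp hf
    refine ⟨8 * zz e * δ, by positivity, l', hl', .inr ⟨φ, h1, fun v hv h3 h4 => ?_⟩⟩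
    have := flux1 he hz hv h3
    rw [h0, zero_add, mul_pow] at this
    refine le_of_mul_le_mul_left (le_trans ?_ this) h
    nlinarith [mul_le_mul_of_nonneg_left (h2 _ h4) (sq_nonneg (zz e))]⟩

omit he in
/-- **SW-GPW** -/
theorem gpwStmt : GpwStmt κ lam ν := fun e ε l he hw hb hW hG w β S ψ he' hβ =>
  hG.imp (fun h v => h ⟨v.a, 0⟩) fun ⟨φ, h1, h2⟩ => ⟨φ, h1, fun v hv h3 => by
    have w0 : 0 ≤ w := he'.cyl.w
    have A := ay_of hv
    let u : e.YC := ⟨v.a, fun y => √w • v.Φ y⟩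
    have U : Ay u := ⟨A.sa, fun y => SA.smul contMDiffAt_const (A.sΦ y), A.pa, fun y => (map_smul _ _ _).trans
      (congrArg (√w • ·) (A.pΦ y))⟩
    have k1 := h2 ⟨v.a, 0⟩ (Ay.adm ⟨A.sa, contMDiff_const, A.pa, fun _ => map_zero _⟩) rfl h3
    have k2 := hW u U.adm
    have e1 : ∀ k y, (gr u).a k y = (gr v).a k y := fun k y => by
      simp only [gr_a he U, gr_a he' A, Ga, qq, u, map_smul, real_inner_smul_left,
        real_inner_smul_right, hw, ← mul_assoc (√w), Real.mul_self_sqrt w0]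
      change _ = 2 * g0 e k y + sd e v.a k y / 2 - w / 4 * ⟪e.m.J (τ e k y (v.Φ y)), v.Φ y⟫_ℝ +
        2 * deriv e.f (hol u) * e.ζ y (none, some k)
      ring
    have e2 : ∀ y, (gr u).Φ y = √w • ((gr v).Φ y + β (nm v) • v.Φ y) := fun y => by
      simp only [gr_Φ he U, gr_Φ he' A, sub_add_cancel, hb, Pi.zero_apply, zero_smul, sub_zero,
        Dl42.GP, D0, dop, u, fun k => nab_csmul (e := e.D.F.e) (A := e.A) k √w (A.sΦ y), map_smul, smul_sub,
        smul_neg, smul_add, smul_sum, smul_comm (√w)]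
      rfl
    have i1 := int_ipd (sm_ga he' hv) (sm_gΦ he' hv) (sm_ga he' hv) (sm_gΦ he' hv)
    have i2 : Integrable (fun y => ‖v.Φ y‖ ^ 2) e.D.F.μ := ii _ (((fy_sl hv).nm.sm).sl 0)
    have k3 : gn u ≤ 2 * gn v + 2 * (w * β (nm v) ^ 2) * nm v := by
      refine (integral_mono (int_ipd (sm_ga he U.adm) (sm_gΦ he U.adm) (sm_ga he U.adm)
        (sm_gΦ he U.adm)) ((i1.const_mul 2).add (i2.const_mul _)) fun y => ?_).trans_eq
        ((integral_add (i1.const_mul 2) (i2.const_mul _)).trans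
          (congrArg₂ _ (integral_const_mul _ _) (integral_const_mul _ _)))
      have n1 := sum_nonneg fun k (_ : k ∈ univ) => mul_self_nonneg ((gr v).a k y)
      have n2 := mul_le_mul_of_nonneg_left (pow_le_pow_left₀ (norm_nonneg _)
        (norm_add_le ((gr v).Φ y) (β (nm v) • v.Φ y)) 2) w0
      have n3 := mul_nonneg w0 (sq_nonneg (‖(gr v).Φ y‖ - ‖β (nm v) • v.Φ y‖))
      have n4 : ‖β (nm v) • v.Φ y‖ ^ 2 = β (nm v) ^ 2 * ‖v.Φ y‖ ^ 2 := by
        rw [norm_smul, mul_pow, Real.norm_eq_abs, sq_abs]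
      simp only [ipd, e1, e2, hw, real_inner_self_eq_norm_sq, norm_smul √w, mul_pow,
        Real.norm_eq_abs, sq_abs, Real.sq_sqrt w0, Pi.add_apply]
      change _ ≤ 2 * (2 * _ + w * _) + 2 * (w * β (nm v) ^ 2) * ‖v.Φ y‖ ^ 2
      nlinarith
    have ε0 := (mul_nonneg w0 (sq_nonneg _)).trans (hβ 0)
    have k4 : w * β (nm v) ^ 2 * nm v ≤ ε := by
      rcases le_total (nm v) 1 with h | h
      · exact (mul_le_of_le_one_right (mul_nonneg w0 (sq_nonneg _)) h).trans (hβ _)
      · rwa [show β (nm v) = 0 from he'.b1 _ h, zero_pow two_ne_zero, mul_zero, zero_mul]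
    linarith⟩

end Crest.Agent.X212.Wp42
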