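import Crest.Agent.X212.Dl42.Main
import Crest.Agent.X212.Sw88.Bn
import Crest.Agent.X212.Mp86.En4

/-!
# Row 212, SW-WP (helper42): the Weitzenboeck formula on the cross-section
-/

set_option autoImplicit false
set_option linter.unusedSectionVars false
noncomputable section
open scoped Manifold ContDiff Topology InnerProductSpace
open Finset Filter MeasureTheory

namespace Crest.Agent.X212.Wp42
open An Sob92 Wz78 Cyf70 Sw88 Mp86.En
open Dl42 (Nul nul_dvg ii ipd int_ipd)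
open Sw (Bg F2 En3)
open Sw.En3 (sl fz gr ip nm hol gn L Crit Eqv)

variable {κ lam ν : Type} [Fintype κ] [Fintype lam] [Fintype ν] [DecidableEq ν]
  {e : En3 κ lam ν} {v : e.YC} {y : e.Y.M}

theorem Nul.le {Y : Type} [MeasurableSpace Y] {μ : Measure Y} {f g g' : Y → ℝ} (h : Nul μ f)
    (hg : Integrable g μ) (hg' : Integrable g' μ) (k : ∀ y, g y + f y ≤ g' y) :
    ∫ y, g y ∂μ ≤ ∫ y, g' y ∂μ :=
  (h.eq hg fun _ => rfl).symm.trans_le (integral_mono (hg.add h.int) hg' k)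

theorem wp_alg {V W : Type} [NormedAddCommGroup V] [InnerProductSpace ℝ V] [NormedAddCommGroup W]
    [InnerProductSpace ℝ W] {G q m : V} {d s : W} {n σ S M N : ℝ} (hq : ‖q‖ = n ^ 2 / 4)
    (hs : ‖s‖ ≤ M * n) (h : σ + M ^ 2 + ‖m‖ / 2 ≤ S / 8) (hN : 0 ≤ N) :
    2 * ‖G‖ ^ 2 / 2 + σ * n ^ 2 + 1 / 2 * (‖d‖ ^ 2 - (N + S / 4 * n ^ 2 + 4 * ⟪G + m, q⟫_ℝ)) ≤
      2 * ‖G - q‖ ^ 2 + ‖d + s‖ ^ 2 := by
  have n1 := abs_real_inner_le_norm m q
  rw [hq, abs_le] at n1
  have n2 := pow_le_pow_left₀ (norm_nonneg _) hs 2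
  have n3 := mul_le_mul_of_nonneg_right h (sq_nonneg n)
  have n5 := sq_nonneg ‖d + (2 : ℝ) • s‖
  have n6 := sq_nonneg ‖G - q‖
  rw [norm_add_sq_real, real_inner_smul_right, norm_smul, Real.norm_two] at n5
  rw [norm_sub_sq_real] at n6 ⊢
  rw [norm_add_sq_real, inner_add_left]
  linarith [n1.1, sq_nonneg ‖q‖]

/-- the Dirac operator on a static configuration -/
abbrev dr (v : e.YC) (y : e.Y.M) : Eu ν :=
  dir (IC e.Y.I) e.cyl.F.e e.cyl.m.ρ (e.cyl.W (fz v)) (fz v).Φ (y, 0)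

/-- the left hand side of the curvature equation -/
def cv (v : e.YC) (y : e.Y.M) : F2 κ := e.cyl.eC (fz v) (y, 0) + deriv e.f (hol v) • e.ζ y

variable (he : e.OK)
include he

theorem norm_sd {G : F2 κ} (h : e.cyl.p2 (y, 0) G = G) :
    ‖G‖ ^ 2 = 4 * ∑ k, G (none, some k) ^ 2 := by
  have B := he.cyl.B
  have h0 : ∀ s, G s = ∑ t, e.cyl.B.sd (y, 0) s t * G t := fun s => by rw [← p2_apply, h]
  have h1 : ∀ s, G s = ∑ t, e.cyl.B.st (y, 0) s t * G t := fun s => by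
    rw [h0 s, sum_congr rfl fun t _ => congrArg (e.cyl.B.st (y, 0) s t * ·) (h0 t)]
    simp only [mul_sum, ← mul_assoc, ← st_sd B (y, 0) s, sum_mul]
    exact sum_comm
  have h2 : ∀ i j, G (j, i) = -G (i, j) := fun i j => by
    rw [h0, h0 (i, j), ← sum_neg_distrib]
    exact sum_congr rfl fun t _ => by rw [← neg_mul, ← sd_swap B]; rfl
  have h3 : G (none, none) = 0 := by linarith [h2 none none]
  have h4 : ∀ k, G (none, some k) = ∑ l, ∑ m,
      e.D.o none (some k) (some l) (some m) y / 2 * G (some l, some m) := fun k => by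
    rw [h1]
    simp only [Fintype.sum_prod_type, Fintype.sum_option, Base.st, cyl_o, o_none he, zero_div,
      zero_mul, sum_const_zero, zero_add]
  have q : ∀ l m k, e.D.o (some l) m none k y = e.D.o none k (some l) m y := fun l m k => by
    have := st_symm B (y, 0) (some l, m) (none, k)
    simp only [Base.st, cyl_o] at this
    linarith
  have h5 : ∀ l m, G (some l, some m) = ∑ k,
      e.D.o none (some k) (some l) (some m) y * G (none, some k) := fun l m => by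
    have q' : ∀ k, e.D.o (some l) (some m) (some k) none y = -e.D.o (some l) (some m) none (some k) y :=
      fun k => B.o34 _ _ _ _ (y, 0)
    rw [h1]
    simp only [Fintype.sum_prod_type, Fintype.sum_option, Base.st, cyl_o, o_some he, q,
      fun k => h2 none (some k),
      q', o_none he, zero_div, zero_mul, sum_const_zero, zero_add, add_zero, ← sum_add_distrib]
    exact sum_congr rfl fun k _ => by ring
  have h6 : ∑ l, ∑ m, G (some l, some m) ^ 2 = 2 * ∑ k, G (none, some k) ^ 2 :=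
    calc _ = ∑ l, ∑ m, ∑ k, e.D.o none (some k) (some l) (some m) y * G (none, some k) *
          G (some l, some m) := by simp only [← sum_mul, ← h5, sq]
      _ = ∑ k, 2 * (G (none, some k) * ∑ l, ∑ m,
          e.D.o none (some k) (some l) (some m) y / 2 * G (some l, some m)) := by
        refine ((sum_congr rfl fun l _ => sum_comm).trans sum_comm).trans ?_
        simp only [mul_sum]
        exact sum_congr rfl fun _ _ => sum_congr rfl fun _ _ => sum_congr rfl fun _ _ => by ring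
      _ = _ := by simp only [← h4, mul_sum, sq]
  rw [← real_inner_self_eq_norm_sq, inner_F2]
  simp only [Fintype.sum_option, ← sq, h3, fun k => h2 none (some k), neg_sq, sum_add_distrib, h6]
  ring

theorem norm_cv : ∑ k, (gr v).a k y * (gr v).a k y = ‖cv v y‖ ^ 2 := by
  rw [norm_sd he (G := cv v y), mul_sum]
  · exact sum_congr rfl fun k _ => by change 2 * cv v y _ * (2 * cv v y _) = _; ring
  · rw [cv, map_add, map_smul, he.pζ, Bg.eC, map_sub, p2_p2 he.cyl, he.cyl.omp]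

theorem norm_eD : ‖e.m.ρ none y (e.cyl.eD (fz v) (y, 0))‖ = ‖e.cyl.eD (fz v) (y, 0)‖ := by
  have h : e.m.p y (e.cyl.eD (fz v) (y, 0)) = e.cyl.eD (fz v) (y, 0) := by
    have h1 := fun i => (he.cyl.m.cl (y, 0) trivial).pl i
    have h2 := p_ms he.cyl (y, 0)
    change e.cyl.m.p (y, 0) _ = _
    simp only [Bg.eD, dir, map_add, map_sum, ← mul_apply_eq_comp (e.cyl.m.p _), h1, h2]
  rw [← pow_left_inj₀ (norm_nonneg _) (norm_nonneg _) two_ne_zero, ← real_inner_self_eq_norm_sq,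
    ρ_sk he, ρρ he, h, inner_neg_right, neg_neg, real_inner_self_eq_norm_sq]

/-- **the integrated Weitzenboeck formula on the cross-section** -/
theorem swz (hv : e.cyl.Adm (fz v)) : Nul e.D.F.μ fun y => ‖dr v y‖ ^ 2 -
    (∑ i, ‖nb (fz v) i (y, 0)‖ ^ 2 + sc e.cyl (y, 0) / 4 * ‖v.Φ y‖ ^ 2 +
      4 * ⟪e.cyl.fc (fz v) (y, 0), e.cyl.qd (y, 0) (v.Φ y) (v.Φ y)⟫_ℝ) := by
  have s := fun j => sm_slice_fst (sm_Vc he.cyl hv j) 0
  have h1 : ∀ j x, nb (fz v) j x = nb (fz v) j (x.1, 0) := fun j x => by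
    cases j
    exacts [(nb_none _).trans (nb_none _).symm, nb_sl (t := x.2) (hv.sΦ _) _]
  have h2 : ∀ j, Vc e.cyl (fz v) j = fun x => Vc e.cyl (fz v) j (x.1, 0) := fun j => funext fun x => by
    simp only [Vc, dir, h1 _ x]
    rfl
  refine ((nul_dvg e.D.F fun k => s (some k)).mul (-1)).of fun y => ?_
  have h3 := wz_div he.cyl hv (x := (y, 0))
  have h4 : dvg (IC e.Y.I) e.cyl.F.e e.cyl.F.dv (Vc e.cyl (fz v)) (y, 0) = 0 + 0 * _ +
      dvg e.Y.I e.D.F.e e.D.F.dv (fun k y => Vc e.cyl (fz v) (some k) (y, 0)) y :=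
    (Fintype.sum_option _).trans (congrArg₂ _ (congrArg (· + _) ((congrArg (dv _ _ · _) (h2 none)).trans
      (congrFun (D_none_fst e.D.F.toPre (s none)) (y, 0)))) (sum_congr rfl fun k _ =>
        congrArg (· + _) (D_some e.D.F.toPre (sm_Vc he.cyl hv (some k)) k (y, 0))))
  change _ + _ * ‖v.Φ y‖ ^ 2 + 4 * ⟪_, e.cyl.qd (y, 0) (v.Φ y) (v.Φ y)⟫_ℝ = _ at h3
  linarith

theorem i_gn (hv : e.cyl.Adm (fz v)) : Integrable (ipd (gr v) (gr v)) e.D.F.μ :=
  have h := Dl42.fy_sl hv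
  int_ipd (fun k => (h.sa he k).sl 0) ((h.sΦ he).sl 0) (fun k => (h.sa he k).sl 0) ((h.sΦ he).sl 0)

omit he in
/-- **SW-WP** -/
theorem wpStmt : WpStmt κ lam ν := fun e σ he hw hb hs v hv => by
  have A := Dl42.ay_of hv
  have hu : e.cyl.Adm (fz (⟨v.a, 0⟩ : e.YC)) :=
    Dl42.Ay.adm ⟨A.sa, contMDiff_const, A.pa, fun _ => map_zero _⟩
  have i1 := (i_gn he hu).div_const 2
  have i2 := (itg ((cont_Φ hv).norm.pow 2)).const_mul σ
  refine ((integral_add i1 i2).trans (congrArg₂ _ (integral_div _ _) (integral_const_mul _ _))).ge.trans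
    (Nul.le ((swz he hv).mul (1 / 2)) (i1.add i2) (i_gn he hv) fun y => ?_)
  have p : e.cyl.pp (y, 0) (v.Φ y) = v.Φ y := hv.pΦ (y, 0)
  have e1 : cv (⟨v.a, 0⟩ : e.YC) y + (e.om y - deriv e.f (hol v) • e.ζ y) =
      e.cyl.p2 (y, 0) (e.cyl.fc (fz v) (y, 0)) := by
    have : e.cyl.qd (y, 0) 0 0 = 0 := by ext; simp [Bg.qd]
    change e.cyl.p2 (y, 0) (e.cyl.fc (fz v) (y, 0) - e.w • e.cyl.qd (y, 0) 0 0) - e.om y +
      deriv e.f (hol v) • e.ζ y + _ = _
    rw [this, smul_zero, sub_zero]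
    abel
  have e2 : cv v y = cv (⟨v.a, 0⟩ : e.YC) y - e.cyl.qd (y, 0) (v.Φ y) (v.Φ y) := by
    rw [eq_sub_of_add_eq e1, cv, Bg.eC, map_sub, map_smul, cyl_w, hw, one_smul, cyl_om,
      show (fz v).Φ (y, 0) = v.Φ y from rfl, p2_qd_self he.cyl p]
    abel
  have e4 : (gr (⟨v.a, 0⟩ : e.YC)).Φ y = 0 := by simp [gr, Bg.eD, dir, nab, fz, dv_const]
  have e5 : ‖(gr v).Φ y‖ = ‖dr v y + e.cyl.ms (y, 0) (v.Φ y)‖ := by
    simp only [gr, hb, Pi.zero_apply, zero_smul, sub_zero, norm_neg, norm_eD he]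
    rfl
  have := wp_alg (G := cv (⟨v.a, 0⟩ : e.YC) y) (d := dr v y) (norm_qd he.cyl p)
    ((e.cyl.ms (y, 0)).le_opNorm (v.Φ y)) (hs y (hol v))
    (sum_nonneg fun i (_ : i ∈ univ) => sq_nonneg ‖nb (fz v) i (y, 0)‖)
  rw [e1, inner_p2 he.cyl, p2_qd_self he.cyl p, ← e2, ← e5] at this
  simp only [ipd, Pi.pow_apply, norm_cv he, e4, hw, real_inner_self_eq_norm_sq, inner_zero_left,
    mul_zero, add_zero, one_mul]
  exact this

end Crest.Agent.X212.Wp42
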